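import Vale.Agent.P204.Full.Common.Linear

/-!
Linear algebra of two-forms on `ℝ⁴` with the standard complex structure.
-/

open scoped Manifold ContDiff

noncomputable section

namespace Vale.Agent.P204.Full.Point

/-! ### Coordinates -/

/-- Coefficient on the standard basis. -/
def co (b : Bil) (i j : Fin 4) : ℝ := b (bvec i) (bvec j)

theorem bvec_apply (i j : Fin 4) : bvec i j = if j = i then 1 else 0 := by
  simp [bvec]

theorem norm_bvec (i : Fin 4) : ‖bvec i‖ = 1 := by simp [bvec]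

theorem vec_expand (v : R4) : v = ∑ i, v i • bvec i := by
  ext j; simp [bvec_apply]

theorem bil_expand (b : Bil) (u v : R4) : b u v = ∑ i, ∑ j, u i * v j * co b i j := by
  conv_lhs => rw [vec_expand u, vec_expand v]
  simp [co, map_sum, Finset.mul_sum, mul_assoc]
  simp only [Fin.sum_univ_four]
  ring

theorem bil_ext {a b : Bil} (h : ∀ i j, co a i j = co b i j) : a = b := by
  ext u v
  rw [bil_expand a u v, bil_expand b u v]
  simp [h]

theorem abs_co_le (b : Bil) (i j : Fin 4) : |co b i j| ≤ ‖b‖ := by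
  have h := b.le_opNorm₂ (bvec i) (bvec j)
  rwa [norm_bvec, norm_bvec, mul_one, mul_one, Real.norm_eq_abs] at h

theorem norm_le_co (b : Bil) : ‖b‖ ≤ ∑ i, ∑ j, |co b i j| := by
  refine b.opNorm_le_bound₂ (by positivity) fun u v => ?_
  rw [bil_expand b u v, Finset.sum_mul, Finset.sum_mul]
  refine (norm_sum_le _ _).trans (Finset.sum_le_sum fun i _ => ?_)
  rw [Finset.sum_mul, Finset.sum_mul]
  refine (norm_sum_le _ _).trans (Finset.sum_le_sum fun j _ => ?_)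
  rw [norm_mul, norm_mul, Real.norm_eq_abs (co b i j)]
  have h1 : ‖u i‖ ≤ ‖u‖ := PiLp.norm_apply_le u i
  have h2 : ‖v j‖ ≤ ‖v‖ := PiLp.norm_apply_le v j
  calc ‖u i‖ * ‖v j‖ * |co b i j| ≤ ‖u‖ * ‖v‖ * |co b i j| :=
        mul_le_mul_of_nonneg_right (mul_le_mul h1 h2 (norm_nonneg _) (norm_nonneg _)) (abs_nonneg _)
    _ = |co b i j| * ‖u‖ * ‖v‖ := by ring

theorem co_diag {b : Bil} (h : IsAlt b) (i : Fin 4) : co b i i = 0 := by
  have := h (bvec i) (bvec i)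
  simp only [co]; linarith

theorem co_swap {b : Bil} (h : IsAlt b) (i j : Fin 4) : co b i j = -co b j i :=
  h (bvec i) (bvec j)

theorem norm_le_six {b : Bil} (h : IsAlt b) :
    ‖b‖ ≤ 2 * (|co b 0 1| + |co b 0 2| + |co b 0 3| + |co b 1 2| + |co b 1 3| + |co b 2 3|) := by
  refine (norm_le_co b).trans (le_of_eq ?_)
  simp only [Fin.sum_univ_four]
  rw [co_diag h 0, co_diag h 1, co_diag h 2, co_diag h 3, co_swap h 1 0, co_swap h 2 0,
    co_swap h 3 0, co_swap h 2 1, co_swap h 3 1, co_swap h 3 2]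
  simp only [abs_neg, abs_zero]
  ring

theorem alt_ext {a b : Bil} (ha : IsAlt a) (hb : IsAlt b) (h01 : co a 0 1 = co b 0 1)
    (h02 : co a 0 2 = co b 0 2) (h03 : co a 0 3 = co b 0 3) (h12 : co a 1 2 = co b 1 2)
    (h13 : co a 1 3 = co b 1 3) (h23 : co a 2 3 = co b 2 3) : a = b := by
  refine bil_ext fun i j => ?_
  fin_cases i <;> fin_cases j <;>
    simp [co_diag ha, co_diag hb, co_swap ha 1 0, co_swap hb 1 0, co_swap ha 2 0, co_swap hb 2 0,
      co_swap ha 3 0, co_swap hb 3 0, co_swap ha 2 1, co_swap hb 2 1, co_swap ha 3 1,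
      co_swap hb 3 1, co_swap ha 3 2, co_swap hb 3 2, h01, h02, h03, h12, h13, h23]

/-! ### Pullbacks -/

theorem pullCov_apply (A : Endo) (α : Cov) (u : R4) : pullCov A α u = α (A u) := rfl

theorem pullBil_comp (A B : Endo) (b : Bil) :
    pullBil (A.comp B) b = pullBil B (pullBil A b) := rfl

theorem alt_pull {b : Bil} (h : IsAlt b) (A : Endo) : IsAlt (pullBil A b) := fun u v => h (A u) (A v)

theorem norm_pullBil_le (A : Endo) (b : Bil) : ‖pullBil A b‖ ≤ ‖A‖ ^ 2 * ‖b‖ := by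
  refine ContinuousLinearMap.opNorm_le_bound₂ _ (by positivity) fun u v => ?_
  refine (b.le_opNorm₂ (A u) (A v)).trans ?_
  calc ‖b‖ * ‖A u‖ * ‖A v‖ ≤ ‖b‖ * (‖A‖ * ‖u‖) * (‖A‖ * ‖v‖) := by
        gcongr <;> exact A.le_opNorm _
    _ = ‖A‖ ^ 2 * ‖b‖ * ‖u‖ * ‖v‖ := by ring

theorem wedgeCov_apply (α β : Cov) (u v : R4) : wedgeCov α β u v = α u * β v - β u * α v := rfl

theorem isAlt_wedgeCov (α β : Cov) : IsAlt (wedgeCov α β) := fun u v => by
  simp only [wedgeCov_apply]; ring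

theorem alt_sub {a b : Bil} (ha : IsAlt a) (hb : IsAlt b) : IsAlt (a - b) := fun u v => by
  simp only [sub_apply, ha u v, hb u v]; ring

theorem top22_pull (A : Endo) {a b : Bil} (ha : IsAlt a) (hb : IsAlt b) :
    top22 (pullBil A a) (pullBil A b) = LinearMap.det (A : R4 →ₗ[ℝ] R4) * top22 a b := by
  have hdet : LinearMap.det (A : R4 →ₗ[ℝ] R4) =
      Matrix.det (Matrix.of fun i j : Fin 4 => A (bvec j) i) := by
    rw [← LinearMap.det_toMatrix (EuclideanSpace.basisFun (Fin 4) ℝ).toBasis]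
    congr 1
  have hA : ∀ c : Bil, IsAlt c → ∀ i j, pullBil A c (bvec i) (bvec j) =
      co c 0 1 * (A (bvec i) 0 * A (bvec j) 1 - A (bvec i) 1 * A (bvec j) 0) +
      co c 0 2 * (A (bvec i) 0 * A (bvec j) 2 - A (bvec i) 2 * A (bvec j) 0) +
      co c 0 3 * (A (bvec i) 0 * A (bvec j) 3 - A (bvec i) 3 * A (bvec j) 0) +
      co c 1 2 * (A (bvec i) 1 * A (bvec j) 2 - A (bvec i) 2 * A (bvec j) 1) +
      co c 1 3 * (A (bvec i) 1 * A (bvec j) 3 - A (bvec i) 3 * A (bvec j) 1) +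
      co c 2 3 * (A (bvec i) 2 * A (bvec j) 3 - A (bvec i) 3 * A (bvec j) 2) := by
    intro c hc i j
    rw [pullBil_apply, bil_expand c]
    simp only [Fin.sum_univ_four]
    rw [co_diag hc 0, co_diag hc 1, co_diag hc 2, co_diag hc 3, co_swap hc 1 0, co_swap hc 2 0,
      co_swap hc 3 0, co_swap hc 2 1, co_swap hc 3 1, co_swap hc 3 2]
    ring
  rw [hdet, Matrix.det_succ_row_zero]
  simp only [top22, hA a ha, hA b hb, Matrix.det_fin_three, Fin.sum_univ_four, Matrix.of_apply,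
    Matrix.submatrix_apply]
  simp [Fin.succAbove, co]
  ring

/-! ### The standard structure -/

/-- The standard complex structure, as a linear map. -/
def J0lin : R4 →ₗ[ℝ] R4 where
  toFun v := (WithLp.equiv 2 (Fin 4 → ℝ)).symm ![-v 1, v 0, -v 3, v 2]
  map_add' u v := by ext i; fin_cases i <;> simp [add_comm]
  map_smul' r v := by ext i; fin_cases i <;> simp

/-- The standard complex structure. -/
def J0 : Endo := J0lin.toContinuousLinearMap

theorem J0_apply (v : R4) :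
    J0 v 0 = -v 1 ∧ J0 v 1 = v 0 ∧ J0 v 2 = -v 3 ∧ J0 v 3 = v 2 := by
  simp [J0, J0lin]

theorem J0_sq (v : R4) : J0 (J0 v) = -v := by
  obtain ⟨a, b, c, d⟩ := J0_apply v
  obtain ⟨a', b', c', d'⟩ := J0_apply (J0 v)
  ext i; fin_cases i <;> simp [a', b', c', d', a, b, c, d]

theorem J0_bvec : J0 (bvec 0) = bvec 1 ∧ J0 (bvec 1) = -bvec 0 ∧ J0 (bvec 2) = bvec 3 ∧
    J0 (bvec 3) = -bvec 2 := by
  refine ⟨?_, ?_, ?_, ?_⟩ <;>
  · obtain ⟨a, b, c, d⟩ := J0_apply (bvec 0)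
    ext i; fin_cases i <;> simp [J0, J0lin, bvec_apply]

/-- The standard form. -/
def omega0 : Bil :=
  wedgeCov (EuclideanSpace.proj 0) (EuclideanSpace.proj 1) +
    wedgeCov (EuclideanSpace.proj 2) (EuclideanSpace.proj 3)

theorem omega0_apply (u v : R4) :
    omega0 u v = u 0 * v 1 - u 1 * v 0 + (u 2 * v 3 - u 3 * v 2) := rfl

theorem isAlt_omega0 : IsAlt omega0 := (isAlt_wedgeCov _ _).add (isAlt_wedgeCov _ _)

theorem omega0_metric (v : R4) : omega0 v (J0 v) = ‖v‖ ^ 2 := by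
  obtain ⟨a, b, c, d⟩ := J0_apply v
  rw [omega0_apply, a, b, c, d, EuclideanSpace.real_norm_sq_eq, Fin.sum_univ_four]
  ring

theorem omega0_co : co omega0 0 1 = 1 ∧ co omega0 0 2 = 0 ∧ co omega0 0 3 = 0 ∧
    co omega0 1 2 = 0 ∧ co omega0 1 3 = 0 ∧ co omega0 2 3 = 1 := by
  simp [co, omega0_apply, bvec_apply]

theorem top22_omega0 : top22 omega0 omega0 = 2 := by
  simp [top22, omega0_apply, bvec_apply]
  norm_num

/-- Standard wedge ratio. -/
def W0 (a b : Bil) : ℝ := top22 a b / 2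

/-- Alternating and invariant. -/
def Inv0 (b : Bil) : Prop := IsAlt b ∧ pullBil J0 b = b

/-- Alternating and anti-invariant. -/
def Anti0 (b : Bil) : Prop := IsAlt b ∧ pullBil J0 b = -b

/-- Semipositive invariant. -/
def Pos0 (b : Bil) : Prop := Inv0 b ∧ ∀ v, 0 ≤ b v (J0 v)

theorem Inv0.co_eq {b : Bil} (h : Inv0 b) : co b 1 3 = co b 0 2 ∧ co b 1 2 = -co b 0 3 := by
  obtain ⟨h0, h1, h2, h3⟩ := J0_bvec
  have e : ∀ i j, b (J0 (bvec i)) (J0 (bvec j)) = b (bvec i) (bvec j) := fun i j =>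
    congrFun (congrArg (fun f : Bil => fun u => f u (bvec j)) h.2) (bvec i)
  have a := e 0 2
  have c := e 0 3
  rw [h0, h2] at a
  rw [h0, h3] at c
  simp only [map_neg] at c
  exact ⟨a, by simp only [co]; linarith⟩

theorem Anti0.co_eq {b : Bil} (h : Anti0 b) :
    co b 0 1 = 0 ∧ co b 2 3 = 0 ∧ co b 1 3 = -co b 0 2 ∧ co b 1 2 = co b 0 3 := by
  obtain ⟨h0, h1, h2, h3⟩ := J0_bvec
  have e : ∀ i j, b (J0 (bvec i)) (J0 (bvec j)) = -(b (bvec i) (bvec j)) := fun i j =>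
    congrFun (congrArg (fun f : Bil => fun u => f u (bvec j)) h.2) (bvec i)
  have a := e 0 2
  have c := e 0 3
  have p := e 0 1
  have q := e 2 3
  rw [h0, h2] at a
  rw [h0, h3] at c
  rw [h0, h1, map_neg, ← h.1] at p
  rw [h2, h3, map_neg, ← h.1] at q
  simp only [map_neg] at c
  refine ⟨?_, ?_, a, ?_⟩ <;> simp only [co] <;> linarith

theorem inv0_value {b : Bil} (h : Inv0 b) (v : R4) :
    b v (J0 v) = co b 0 1 * (v 0 ^ 2 + v 1 ^ 2) + co b 2 3 * (v 2 ^ 2 + v 3 ^ 2) +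
      2 * co b 0 2 * (v 1 * v 2 - v 0 * v 3) + 2 * co b 0 3 * (v 0 * v 2 + v 1 * v 3) := by
  obtain ⟨a, c, d, e⟩ := J0_apply v
  obtain ⟨p, q⟩ := h.co_eq
  rw [bil_expand b]
  simp only [Fin.sum_univ_four, a, c, d, e]
  rw [co_diag h.1 0, co_diag h.1 1, co_diag h.1 2, co_diag h.1 3, co_swap h.1 1 0,
    co_swap h.1 2 0, co_swap h.1 3 0, co_swap h.1 2 1, co_swap h.1 3 1, co_swap h.1 3 2, p, q]
  ring

theorem W0_inv {a b : Bil} (ha : Inv0 a) (hb : Inv0 b) :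
    W0 a b = (co a 0 1 * co b 2 3 + co a 2 3 * co b 0 1) / 2 -
      (co a 0 2 * co b 0 2 + co a 0 3 * co b 0 3) := by
  obtain ⟨p, q⟩ := ha.co_eq
  obtain ⟨r, s⟩ := hb.co_eq
  simp only [co] at p q r s
  simp only [W0, top22, co, p, q, r, s]
  ring

theorem inv0_omega0 : Inv0 omega0 := by
  refine ⟨isAlt_omega0, ?_⟩
  ext u v
  obtain ⟨a, b, c, d⟩ := J0_apply u
  obtain ⟨a', b', c', d'⟩ := J0_apply v
  simp only [pullBil_apply, omega0_apply, a, b, c, d, a', b', c', d']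
  ring

theorem W0_omega {b : Bil} (h : Inv0 b) : W0 b omega0 = (co b 0 1 + co b 2 3) / 2 := by
  obtain ⟨a, c, d, e, f, g⟩ := omega0_co
  rw [W0_inv h inv0_omega0, a, c, d, g]
  ring

theorem W0_inv_anti {a b : Bil} (ha : Inv0 a) (hb : Anti0 b) : W0 a b = 0 := by
  obtain ⟨p, q⟩ := ha.co_eq
  obtain ⟨r, s, t, w⟩ := hb.co_eq
  simp only [co] at p q r s t w
  simp only [W0, top22, p, q, r, s, t, w]
  ring

theorem pos0_iff {b : Bil} (h : Inv0 b) : (∀ v, 0 ≤ b v (J0 v)) ↔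
    0 ≤ co b 0 1 ∧ 0 ≤ co b 2 3 ∧ co b 0 2 ^ 2 + co b 0 3 ^ 2 ≤ co b 0 1 * co b 2 3 := by
  constructor
  · intro hp
    have hA : 0 ≤ co b 0 1 := by
      have := hp (bvec 0); rw [inv0_value h] at this; simpa [bvec_apply] using this
    have hC : 0 ≤ co b 2 3 := by
      have := hp (bvec 2); rw [inv0_value h] at this; simpa [bvec_apply] using this
    refine ⟨hA, hC, ?_⟩
    set A := co b 0 1
    set C := co b 2 3
    set p := co b 0 2
    set q := co b 0 3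
    have key : ∀ t : ℝ, 0 ≤ A * (t * t) + 2 * (p ^ 2 + q ^ 2) * t + C * (p ^ 2 + q ^ 2) := by
      intro t
      have := hp ((WithLp.equiv 2 (Fin 4 → ℝ)).symm ![t, 0, q, -p])
      rw [inv0_value h] at this
      simp at this
      linarith
    have hd := discrim_le_zero key
    rw [discrim] at hd
    by_contra hcon
    rw [not_le] at hcon
    have hR : 0 < p ^ 2 + q ^ 2 := lt_of_le_of_lt (mul_nonneg hA hC) hcon
    nlinarith
  · rintro ⟨hA, hC, hR⟩ v
    rw [inv0_value h]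
    set A := co b 0 1
    set C := co b 2 3
    set p := co b 0 2
    set q := co b 0 3
    set X := v 1 * v 2 - v 0 * v 3
    set Y := v 0 * v 2 + v 1 * v 3
    have e : X ^ 2 + Y ^ 2 = (v 0 ^ 2 + v 1 ^ 2) * (v 2 ^ 2 + v 3 ^ 2) := by
      simp only [X, Y]; ring
    have h1 : 0 ≤ v 0 ^ 2 + v 1 ^ 2 := by positivity
    have h2 : 0 ≤ v 2 ^ 2 + v 3 ^ 2 := by positivity
    set s := v 0 ^ 2 + v 1 ^ 2
    set t := v 2 ^ 2 + v 3 ^ 2
    have hcs : (p * X + q * Y) ^ 2 ≤ (A * C) * (s * t) := by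
      calc (p * X + q * Y) ^ 2 ≤ (p ^ 2 + q ^ 2) * (X ^ 2 + Y ^ 2) := by
            nlinarith [sq_nonneg (p * Y - q * X)]
        _ ≤ (A * C) * (s * t) := by
            rw [e]; exact mul_le_mul_of_nonneg_right hR (mul_nonneg h1 h2)
    have hsum : 0 ≤ A * s + C * t := by positivity
    have hsq : (2 * (p * X + q * Y)) ^ 2 ≤ (A * s + C * t) ^ 2 := by
      nlinarith [sq_nonneg (A * s - C * t)]
    have := abs_le_of_sq_le_sq' hsq hsum
    linarith [this.1]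

/-- The most negative direction of an invariant form, in standard coordinates. -/
theorem inv0_lower {b : Bil} (h : Inv0 b) :
    (∀ v, -(max 0 (Real.sqrt (W0 b omega0 ^ 2 - W0 b b) - W0 b omega0) * ‖v‖ ^ 2) ≤ b v (J0 v)) ∧
      ∀ f : ℝ, 0 ≤ f → (∀ v, -(f * ‖v‖ ^ 2) ≤ b v (J0 v)) →
        max 0 (Real.sqrt (W0 b omega0 ^ 2 - W0 b b) - W0 b omega0) ≤ f := by
  obtain ⟨o1, o2, o3, o4, o5, o6⟩ := omega0_co
  have hi : ∀ f : ℝ, Inv0 (b + f • omega0) := fun f =>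
    ⟨h.1.add (isAlt_omega0.smul f), by rw [pullBil_add, pullBil_smul, h.2, inv0_omega0.2]⟩
  have hv : ∀ (f : ℝ) v, (b + f • omega0) v (J0 v) = b v (J0 v) + f * ‖v‖ ^ 2 := fun f v => by
    simp [omega0_metric]
  have hc : ∀ (f : ℝ) i j, co (b + f • omega0) i j = co b i j + f * co omega0 i j := fun f i j => by
    simp [co]
  set D := W0 b omega0 ^ 2 - W0 b b with hD
  have hDe : D = ((co b 0 1 - co b 2 3) / 2) ^ 2 + (co b 0 2 ^ 2 + co b 0 3 ^ 2) := by
    rw [hD, W0_omega h, W0_inv h h]; ring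
  have hD0 : 0 ≤ D := by rw [hDe]; positivity
  have hW : W0 b omega0 = (co b 0 1 + co b 2 3) / 2 := W0_omega h
  constructor
  · intro v
    set f := max 0 (Real.sqrt D - W0 b omega0) with hf
    have hge : Real.sqrt D ≤ f + W0 b omega0 := by linarith [le_max_right (0 : ℝ) (Real.sqrt D - W0 b omega0)]
    have hsq : D ≤ (f + W0 b omega0) ^ 2 := by
      calc D = Real.sqrt D ^ 2 := (Real.sq_sqrt hD0).symm
        _ ≤ _ := pow_le_pow_left₀ (Real.sqrt_nonneg _) hge 2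
    have hab : |(co b 0 1 - co b 2 3) / 2| ≤ f + W0 b omega0 := by
      refine le_trans ?_ hge
      rw [← Real.sqrt_sq_eq_abs]
      exact Real.sqrt_le_sqrt (by rw [hDe]; nlinarith [sq_nonneg (co b 0 2), sq_nonneg (co b 0 3)])
    obtain ⟨h1, h2⟩ := abs_le.1 hab
    have := ((pos0_iff (hi f)).2 ⟨by rw [hc, o1]; linarith, by rw [hc, o6]; linarith, by
      rw [hc, hc, hc, hc, o1, o2, o3, o6]; rw [hW, hDe] at hsq; nlinarith⟩) v
    rw [hv] at this
    linarith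
  · intro f hf hb
    refine max_le hf ?_
    obtain ⟨a1, a2, a3⟩ := (pos0_iff (hi f)).1 fun v => by rw [hv]; linarith [hb v]
    rw [hc, o1] at a1
    rw [hc, o6] at a2
    rw [hc, hc, hc, hc, o1, o2, o3, o6] at a3
    have h0 : 0 ≤ f + W0 b omega0 := by rw [hW]; linarith
    have : Real.sqrt D ≤ f + W0 b omega0 := by
      rw [Real.sqrt_le_left h0, hW, hDe]
      nlinarith
    linarith

theorem inv0_norm {b : Bil} (h : Inv0 b) :
    ‖b‖ ^ 2 ≤ 192 * (2 * W0 b omega0 ^ 2 - W0 b b) := by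
  obtain ⟨p, q⟩ := h.co_eq
  have hn := norm_le_six h.1
  rw [p, q, abs_neg] at hn
  rw [W0_omega h, W0_inv h h]
  have := pow_le_pow_left₀ (norm_nonneg b) hn 2
  nlinarith [sq_abs (co b 0 1), sq_abs (co b 0 2), sq_abs (co b 0 3), sq_abs (co b 2 3),
    sq_nonneg (|co b 0 1| - |co b 0 2|), sq_nonneg (|co b 0 1| - |co b 0 3|),
    sq_nonneg (|co b 0 1| - |co b 2 3|), sq_nonneg (|co b 0 2| - |co b 0 3|),
    sq_nonneg (|co b 0 2| - |co b 2 3|), sq_nonneg (|co b 0 3| - |co b 2 3|)]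

theorem anti0_norm {b : Bil} (h : Anti0 b) : ‖b‖ ^ 2 ≤ 64 * W0 b b := by
  obtain ⟨p, q, r, s⟩ := h.co_eq
  have hn := norm_le_six h.1
  rw [p, q, r, s, abs_neg, abs_zero] at hn
  have hW : W0 b b = co b 0 2 ^ 2 + co b 0 3 ^ 2 := by
    simp only [co] at p q r s
    simp only [W0, top22, co, p, q, r, s]; ring
  rw [hW]
  have := pow_le_pow_left₀ (norm_nonneg b) hn 2
  nlinarith [sq_abs (co b 0 2), sq_abs (co b 0 3), sq_nonneg (|co b 0 2| - |co b 0 3|)]

theorem pos0_norm {b : Bil} (h : Pos0 b) : ‖b‖ ≤ 16 * W0 b omega0 := by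
  obtain ⟨p, q⟩ := h.1.co_eq
  obtain ⟨hA, hC, hR⟩ := (pos0_iff h.1).1 h.2
  have hn := norm_le_six h.1.1
  rw [p, q, abs_neg, abs_of_nonneg hA, abs_of_nonneg hC] at hn
  rw [W0_omega h.1]
  have h2 : |co b 0 2| ≤ (co b 0 1 + co b 2 3) / 2 := by
    refine abs_le_of_sq_le_sq ?_ (by linarith)
    nlinarith [sq_nonneg (co b 0 1 - co b 2 3), sq_nonneg (co b 0 3)]
  have h3 : |co b 0 3| ≤ (co b 0 1 + co b 2 3) / 2 := by
    refine abs_le_of_sq_le_sq ?_ (by linarith)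
    nlinarith [sq_nonneg (co b 0 1 - co b 2 3), sq_nonneg (co b 0 2)]
  linarith

theorem W0_pos {a b : Bil} (ha : Pos0 a) (hb : Pos0 b) : 0 ≤ W0 a b := by
  obtain ⟨hA, hC, hR⟩ := (pos0_iff ha.1).1 ha.2
  obtain ⟨hA', hC', hR'⟩ := (pos0_iff hb.1).1 hb.2
  rw [W0_inv ha.1 hb.1]
  set A := co a 0 1
  set C := co a 2 3
  set p := co a 0 2
  set q := co a 0 3
  set A' := co b 0 1
  set C' := co b 2 3
  set p' := co b 0 2
  set q' := co b 0 3
  have hcs : (p * p' + q * q') ^ 2 ≤ (A * C) * (A' * C') := by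
    calc (p * p' + q * q') ^ 2 ≤ (p ^ 2 + q ^ 2) * (p' ^ 2 + q' ^ 2) := by
          nlinarith [sq_nonneg (p * q' - q * p')]
      _ ≤ _ := mul_le_mul hR hR' (by positivity) (mul_nonneg hA hC)
  have hsum : 0 ≤ A * C' + C * A' := by positivity
  have hsq : (2 * (p * p' + q * q')) ^ 2 ≤ (A * C' + C * A') ^ 2 := by
    nlinarith [sq_nonneg (A * C' - C * A')]
  have := (abs_le_of_sq_le_sq' hsq hsum).2
  linarith

theorem inv0_posForm (α : Cov) : Inv0 (posForm J0 α) := by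
  refine ⟨isAlt_wedgeCov _ _, ?_⟩
  ext u v
  simp only [pullBil_apply, posForm, wedgeCov_apply, neg_apply,
    ContinuousLinearMap.comp_apply, J0_sq, map_neg]
  ring

theorem W0_dual {a : Bil} (ha : Inv0 a) (h : ∀ α : Cov, 0 ≤ W0 a (posForm J0 α)) : Pos0 a := by
  refine ⟨ha, fun v => ?_⟩
  have hh := h (v 2 • EuclideanSpace.proj 0 - v 3 • EuclideanSpace.proj 1 -
    v 0 • EuclideanSpace.proj 2 + v 1 • EuclideanSpace.proj 3)
  rw [W0_inv ha (inv0_posForm _)] at hh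
  obtain ⟨h0, h1, h2, h3⟩ := J0_bvec
  simp [co, posForm, wedgeCov_apply, h0, h1, h2, h3, bvec_apply] at hh
  rw [inv0_value ha]
  simp only [co] at hh ⊢
  linarith

theorem abs_W0_le (a b : Bil) : |W0 a b| ≤ 3 * ‖a‖ * ‖b‖ := by
  have h : ∀ i j k l, |co a i j * co b k l| ≤ ‖a‖ * ‖b‖ := fun i j k l => by
    rw [abs_mul]; exact mul_le_mul (abs_co_le a i j) (abs_co_le b k l) (abs_nonneg _) ((abs_nonneg _).trans (abs_co_le a i j))
  have h1 := abs_le.1 (h 0 1 2 3)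
  have h2 := abs_le.1 (h 0 2 1 3)
  have h3 := abs_le.1 (h 0 3 1 2)
  have h4 := abs_le.1 (h 1 2 0 3)
  have h5 := abs_le.1 (h 1 3 0 2)
  have h6 := abs_le.1 (h 2 3 0 1)
  simp only [co] at h1 h2 h3 h4 h5 h6
  rw [abs_le]
  simp only [W0, top22]
  constructor <;> linarith

end Vale.Agent.P204.Full.Point
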