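import Vale.Agent.P204.Full.Point.Chart

/-!
Adapted frames with uniformly controlled fibre norm, and the pointwise facts they give.
-/

open scoped Manifold ContDiff Topology
open Set Filter

noncomputable section

namespace Vale.Agent.P204.Full.Point

universe u

variable {X : Type u} [TopologicalSpace X] [ChartedSpace R4 X] [IsManifold 𝓘(ℝ, R4) ∞ X]
  (G : Geo X)

/-- A frame in which both the complex structure and the form are standard. -/
structure Frame (x : X) where
  A : R4 ≃L[ℝ] R4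
  omega_std : pullBil (A : Endo) (G.omega x) = omega0
  J_std : ∀ v, G.J x (A v) = A (J0 v)

theorem metric_symm (x : X) (u v : R4) : G.omega x u (G.J x v) = G.omega x v (G.J x u) := by
  have h := G.omega_inv x u (G.J x v)
  rw [J_J G, map_neg, ← G.omega_smooth.1 x] at h
  exact h.symm

theorem omega_J_self (x : X) (u : R4) : G.omega x u u = 0 := by
  have := G.omega_smooth.1 x u u; linarith

theorem metric_orth (x : X) (u : R4) : G.omega x u (G.J x (G.J x u)) = 0 := by
  rw [J_J G, map_neg, omega_J_self, neg_zero]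

theorem exists_unit (x : X) {v : R4} (hv : v ≠ 0) :
    ∃ t : ℝ, G.omega x (t • v) (G.J x (t • v)) = 1 := by
  have h := G.omega_pos x v hv
  refine ⟨(Real.sqrt (G.omega x v (G.J x v)))⁻¹, ?_⟩
  simp only [map_smul, smul_apply, smul_eq_mul]
  rw [← mul_assoc, ← mul_inv, Real.mul_self_sqrt h.le, inv_mul_cancel₀ h.ne']

theorem exists_frame (x : X) : Nonempty (Frame G x) := by
  obtain ⟨v₀, hv₀⟩ : ∃ v : R4, v ≠ 0 := ⟨bvec 0, fun h => by simpa [h] using norm_bvec 0⟩
  obtain ⟨t, ht⟩ := exists_unit G x hv₀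
  set p : R4 := t • v₀
  obtain ⟨w, hw⟩ : ∃ w, w ∉ Submodule.span ℝ (Set.range ![p, G.J x p]) := by
    by_contra hcon
    push Not at hcon
    have h1 := finrank_range_le_card (R := ℝ) ![p, G.J x p]
    rw [Set.finrank, Submodule.eq_top_iff'.2 hcon, finrank_top] at h1
    simp at h1
  set w' : R4 := w - G.omega x p (G.J x w) • p - G.omega x (G.J x p) (G.J x w) • G.J x p with hw'
  have hw'0 : w' ≠ 0 := by
    intro h
    refine hw ?_
    have e : w = G.omega x p (G.J x w) • p + G.omega x (G.J x p) (G.J x w) • G.J x p := by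
      rw [hw', sub_sub, sub_eq_zero] at h; exact h
    rw [e]
    refine add_mem (Submodule.smul_mem _ _ (Submodule.subset_span ⟨0, rfl⟩))
      (Submodule.smul_mem _ _ (Submodule.subset_span ⟨1, rfl⟩))
  obtain ⟨s, hs⟩ := exists_unit G x hw'0
  set q : R4 := s • w'
  have gJ : ∀ a b, G.omega x (G.J x a) (G.J x b) = G.omega x a b := G.omega_inv x
  have e1 : G.omega x (G.J x p) (G.J x (G.J x p)) = 1 := by rw [gJ]; exact ht
  have o1 : G.omega x p (G.J x (G.J x p)) = 0 := metric_orth G x p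
  have o2 : G.omega x (G.J x p) (G.J x p) = 0 := omega_J_self G x _
  have z1 : G.omega x p (G.J x q) = 0 := by
    simp only [q, hw', map_smul, map_sub, smul_eq_mul, ht, o1]; ring
  have z2 : G.omega x (G.J x p) (G.J x q) = 0 := by
    simp only [q, hw', map_smul, map_sub, smul_eq_mul, e1, o2]; ring
  have z3 : G.omega x p q = 0 := by rw [← gJ]; exact z2
  have z4 : G.omega x (G.J x p) q = 0 := by
    rw [G.omega_smooth.1 x, metric_symm G x, z1, neg_zero]
  set T : R4 →ₗ[ℝ] R4 :=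
    (EuclideanSpace.proj 0 : R4 →L[ℝ] ℝ).toLinearMap.smulRight p +
      (EuclideanSpace.proj 1 : R4 →L[ℝ] ℝ).toLinearMap.smulRight (G.J x p) +
      (EuclideanSpace.proj 2 : R4 →L[ℝ] ℝ).toLinearMap.smulRight q +
      (EuclideanSpace.proj 3 : R4 →L[ℝ] ℝ).toLinearMap.smulRight (G.J x q) with hT
  have hTv : ∀ v : R4, T v = v 0 • p + v 1 • G.J x p + v 2 • q + v 3 • G.J x q := fun v => by
    simp [hT]
  have hTJ : ∀ v, G.J x (T v) = T (J0 v) := by
    intro v
    obtain ⟨a, b, c, d⟩ := J0_apply v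
    rw [hTv, hTv, a, b, c, d]
    simp only [map_add, map_smul, J_J G]
    module
  have hTo : ∀ u v, G.omega x (T u) (T v) = omega0 u v := by
    intro u v
    have alt := G.omega_smooth.1 x
    rw [hTv, hTv, omega0_apply]
    simp only [map_add, map_smul, add_apply, smul_apply, smul_eq_mul, omega_J_self G, ht, hs, z1,
      z2, z3, z4, alt (G.J x p) p, alt q p, alt q (G.J x p), alt (G.J x q) p,
      alt (G.J x q) (G.J x p), alt (G.J x q) q]
    ring
  have hinj : Function.Injective T := by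
    refine (injective_iff_map_eq_zero T).2 fun v hv => ?_
    have h := omega0_metric v
    rw [← hTo, ← hTJ, hv] at h
    simp at h
    exact norm_eq_zero.1 (pow_eq_zero_iff two_ne_zero |>.1 h.symm)
  refine ⟨⟨(LinearEquiv.ofInjectiveEndo T hinj).toContinuousLinearEquiv, ?_, hTJ⟩⟩
  ext u v
  exact hTo u v

variable {G} {x : X} (F : Frame G x)

theorem pullBil_inj {A : R4 ≃L[ℝ] R4} {a b : Bil}
    (h : pullBil (A : Endo) a = pullBil (A : Endo) b) : a = b := by
  ext u v
  have := congrArg (fun f : Bil => f (A.symm u) (A.symm v)) h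
  simpa [pullBil_apply] using this

theorem pull_J (b : Bil) : pullBil (F.A : Endo) (pullBil (G.J x) b) = pullBil J0 (pullBil (F.A : Endo) b) := by
  ext u v
  simp [pullBil_apply, F.J_std]

theorem Frame.alt_iff (b : Bil) : IsAlt (pullBil (F.A : Endo) b) ↔ IsAlt b := by
  refine ⟨fun h u v => ?_, fun h => alt_pull h _⟩
  simpa [pullBil_apply] using h (F.A.symm u) (F.A.symm v)

theorem Frame.invAt_iff (b : Bil) : G.InvAt x b ↔ Inv0 (pullBil (F.A : Endo) b) := by
  constructor
  · rintro ⟨h1, h2⟩; exact ⟨alt_pull h1 _, by rw [← pull_J F, h2]⟩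
  · rintro ⟨h1, h2⟩; exact ⟨(F.alt_iff b).1 h1, pullBil_inj (by rw [pull_J F, h2])⟩

theorem Frame.antiAt_iff (b : Bil) : G.AntiAt x b ↔ Anti0 (pullBil (F.A : Endo) b) := by
  constructor
  · rintro ⟨h1, h2⟩; exact ⟨alt_pull h1 _, by rw [← pull_J F, h2]; rfl⟩
  · rintro ⟨h1, h2⟩; exact ⟨(F.alt_iff b).1 h1, pullBil_inj (by rw [pull_J F, h2]; rfl)⟩

theorem Frame.value (b : Bil) (w : R4) :
    b (F.A w) (G.J x (F.A w)) = pullBil (F.A : Endo) b w (J0 w) := by
  simp [pullBil_apply, F.J_std]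

theorem Frame.metric (w : R4) : G.metric x (F.A w) (F.A w) = ‖w‖ ^ 2 := by
  show G.omega x (F.A w) (G.J x (F.A w)) = _
  rw [F.value, F.omega_std, omega0_metric]

theorem Frame.posAt_iff (b : Bil) : G.PosAt x b ↔ Pos0 (pullBil (F.A : Endo) b) := by
  constructor
  · rintro ⟨h1, h2⟩
    exact ⟨(F.invAt_iff b).1 h1, fun w => F.value b w ▸ h2 (F.A w)⟩
  · rintro ⟨h1, h2⟩
    refine ⟨(F.invAt_iff b).2 h1, fun v => ?_⟩
    have := h2 (F.A.symm v)
    rwa [← F.value, F.A.apply_symm_apply] at this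

theorem Frame.W_eq {a b : Bil} (ha : IsAlt a) (hb : IsAlt b) :
    G.W x a b = W0 (pullBil (F.A : Endo) a) (pullBil (F.A : Endo) b) := by
  have ho := top22_pull (F.A : Endo) (G.omega_smooth.1 x) (G.omega_smooth.1 x)
  rw [F.omega_std, top22_omega0] at ho
  have hdet : LinearMap.det ((F.A : Endo) : R4 →ₗ[ℝ] R4) ≠ 0 := left_ne_zero_of_mul (ho ▸ two_ne_zero)
  simp only [Geo.W, W0]
  rw [top22_pull (F.A : Endo) ha hb]
  have ho2 : top22 (G.omega x) (G.omega x) ≠ 0 := right_ne_zero_of_mul (ho ▸ two_ne_zero)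
  field_simp
  linear_combination top22 a b * ho

/-! ### Uniform comparison -/

variable (G)

theorem closedBall_sphere_compact :
    IsCompact (Metric.closedBall (0 : R4) 3 ×ˢ Metric.sphere (0 : R4) 1) :=
  (isCompact_closedBall _ _).prod (isCompact_sphere _ _)

theorem qform_smul (θ : X → Bil) (c : OpenPartialHomeomorph X R4) (y w : R4) (r : ℝ) :
    qform G θ c (y, r • w) = r ^ 2 * qform G θ c (y, w) := by
  simp only [qform, map_smul, smul_apply, smul_eq_mul]; ring

theorem qform_scale (θ : X → Bil) (c : OpenPartialHomeomorph X R4) (y w : R4) :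
    ∃ v, v ∈ Metric.sphere (0 : R4) 1 ∧ qform G θ c (y, w) = ‖w‖ ^ 2 * qform G θ c (y, v) := by
  rcases eq_or_ne w 0 with rfl | hw
  · exact ⟨bvec 0, by simp [norm_bvec], by simp [qform]⟩
  · refine ⟨‖w‖⁻¹ • w, by simp [norm_smul, hw], ?_⟩
    rw [qform_smul, inv_pow, ← mul_assoc, mul_inv_cancel₀ (pow_ne_zero _ (norm_ne_zero_iff.2 hw)),
      one_mul]

theorem qform_compare {θ : X → Bil} (hθ : Cont2 θ)
    (hpos : ∀ (x : X) (v : R4), v ≠ 0 → 0 < θ x v (G.J x v)) (i : Fin G.n) :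
    ∃ m M : ℝ, 0 < m ∧ ∀ y : R4, ‖y‖ ≤ 3 → ∀ w : R4,
      m * ‖w‖ ^ 2 ≤ qform G θ (G.c i) (y, w) ∧ qform G θ (G.c i) (y, w) ≤ M * ‖w‖ ^ 2 := by
  set K := Metric.closedBall (0 : R4) 3 ×ˢ Metric.sphere (0 : R4) 1
  have hsub : Metric.closedBall (0 : R4) 3 ⊆ (G.c i).target :=
    closedBall_subset_target G i (by norm_num)
  have hc : ContinuousOn (qform G θ (G.c i)) K :=
    (continuousOn_qform G hθ (G.c_mem i)).mono (Set.prod_mono hsub (subset_univ _))
  have hne : K.Nonempty := ⟨(0, bvec 0), by simp [K, norm_bvec]⟩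
  obtain ⟨⟨y₁, w₁⟩, hp₁, hmin⟩ := closedBall_sphere_compact.exists_isMinOn hne hc
  obtain ⟨⟨y₂, w₂⟩, -, hmax⟩ := closedBall_sphere_compact.exists_isMaxOn hne hc
  refine ⟨qform G θ (G.c i) (y₁, w₁), qform G θ (G.c i) (y₂, w₂), ?_, fun y hy w => ?_⟩
  · refine hpos _ _ fun h0 => ?_
    have h1 : w₁ = 0 := (dequiv (G.c_mem i) (hsub hp₁.1)).map_eq_zero_iff.1 h0
    have h2 : ‖w₁‖ = 1 := by simpa using hp₁.2
    rw [h1, norm_zero] at h2
    exact zero_ne_one h2
  · obtain ⟨v, hv, e⟩ := qform_scale G θ (G.c i) y w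
    have hK : (y, v) ∈ K := ⟨by simpa using hy, hv⟩
    rw [e]
    constructor
    · rw [mul_comm]; exact mul_le_mul_of_nonneg_left (hmin hK) (sq_nonneg _)
    · rw [mul_comm (qform G θ (G.c i) (y₂, w₂))]
      exact mul_le_mul_of_nonneg_left (hmax hK) (sq_nonneg _)

/-- Bounds of all charts at once. -/
theorem qform_compare_all {θ : X → Bil} (hθ : Cont2 θ)
    (hpos : ∀ (x : X) (v : R4), v ≠ 0 → 0 < θ x v (G.J x v)) :
    ∃ m M : ℝ, 0 < m ∧ 0 < M ∧ ∀ i, ∀ y : R4, ‖y‖ ≤ 3 → ∀ w : R4,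
      m * ‖w‖ ^ 2 ≤ qform G θ (G.c i) (y, w) ∧ qform G θ (G.c i) (y, w) ≤ M * ‖w‖ ^ 2 := by
  choose m M hm h using fun i => qform_compare G hθ hpos i
  set S : ℝ := (∑ i, ((m i)⁻¹ + |M i|)) + 1 with hS
  have hnn : ∀ i, 0 ≤ (m i)⁻¹ + |M i| := fun i => by have := hm i; positivity
  have hle : ∀ i, (m i)⁻¹ + |M i| ≤ S := fun i => by
    have := Finset.single_le_sum (fun k _ => hnn k) (Finset.mem_univ i); linarith
  have hS0 : 0 < S := by
    have := Finset.sum_nonneg (fun k (_ : k ∈ (Finset.univ : Finset (Fin G.n))) => hnn k); linarith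
  refine ⟨S⁻¹, S, inv_pos.2 hS0, hS0, fun i y hy w => ⟨?_, ?_⟩⟩
  · refine le_trans (mul_le_mul_of_nonneg_right ?_ (sq_nonneg _)) (h i y hy w).1
    rw [inv_le_comm₀ hS0 (hm i)]
    linarith [hle i, abs_nonneg (M i)]
  · refine (h i y hy w).2.trans (mul_le_mul_of_nonneg_right ?_ (sq_nonneg _))
    linarith [hle i, le_abs_self (M i), inv_pos.2 (hm i)]

theorem qform_omega (i : Fin G.n) (y w : R4) :
    qform G G.omega (G.c i) (y, w) =
      G.metric ((G.c i).symm y) (dsymm (G.c i) y w) (dsymm (G.c i) y w) := rfl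

/-- The fibre norm is uniformly equivalent to the norm in any adapted frame. -/
theorem frame_compare : ∃ C : ℝ, 0 < C ∧ ∀ (x : X) (F : Frame G x) (b : Bil),
    G.nrmVal x b ≤ C * ‖pullBil (F.A : Endo) b‖ ∧ ‖pullBil (F.A : Endo) b‖ ≤ C * G.nrmVal x b := by
  obtain ⟨m, M, hm, hM, h⟩ := qform_compare_all G (cont2_of_smooth2 G.omega_smooth) G.omega_pos
  refine ⟨m⁻¹ + M, by positivity, fun x F b => ?_⟩
  have key : ∀ i, G.rho i x ≠ 0 →
      ‖view2 (G.c i) (fun _ => b) (G.c i x)‖ ≤ M * ‖pullBil (F.A : Endo) b‖ ∧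
        ‖pullBil (F.A : Endo) b‖ ≤ m⁻¹ * ‖view2 (G.c i) (fun _ => b) (G.c i x)‖ := by
    intro i hi
    obtain ⟨hx, hn⟩ := rho_supp G hi
    set y := G.c i x
    have hy : y ∈ (G.c i).target := (G.c i).map_source hx
    have hsx : (G.c i).symm y = x := (G.c i).left_inv hx
    set D := dequiv (G.c_mem i) hy
    set B : R4 ≃L[ℝ] R4 := F.A.trans D.symm with hB
    have hDA : ∀ v, dsymm (G.c i) y (B v) = F.A v := fun v => by
      show D (D.symm (F.A v)) = F.A v
      exact D.apply_symm_apply _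
    have hq : ∀ v, qform G G.omega (G.c i) (y, B v) = ‖v‖ ^ 2 := fun v => by
      rw [qform_omega, hsx, hDA, F.metric]
    have hview : view2 (G.c i) (fun _ => b) y = pullBil (dsymm (G.c i) y) b := rfl
    have e1 : pullBil (B : Endo) (view2 (G.c i) (fun _ => b) y) = pullBil (F.A : Endo) b := by
      ext u v; simp [hview, pullBil_apply, hDA]
    have e2 : pullBil (B.symm : Endo) (pullBil (F.A : Endo) b) = view2 (G.c i) (fun _ => b) y := by
      rw [← e1]; ext u v; simp [pullBil_apply]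
    have hy3 : ‖y‖ ≤ 3 := by linarith
    have n1 : ‖(B : Endo)‖ ^ 2 ≤ m⁻¹ := by
      refine (pow_le_pow_left₀ (norm_nonneg _) (ContinuousLinearMap.opNorm_le_bound _
        (Real.sqrt_nonneg m⁻¹) fun v => ?_) 2).trans (le_of_eq (Real.sq_sqrt (by positivity)))
      have := (h i y hy3 (B v)).1
      rw [hq] at this
      rw [← Real.sqrt_sq (norm_nonneg v), ← Real.sqrt_mul (by positivity)]
      refine Real.le_sqrt_of_sq_le ?_
      rw [inv_mul_eq_div, le_div_iff₀ hm, mul_comm]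
      exact this
    have n2 : ‖(B.symm : Endo)‖ ^ 2 ≤ M := by
      refine (pow_le_pow_left₀ (norm_nonneg _) (ContinuousLinearMap.opNorm_le_bound _
        (Real.sqrt_nonneg M) fun v => ?_) 2).trans (le_of_eq (Real.sq_sqrt hM.le))
      have := (h i y hy3 v).2
      rw [← B.apply_symm_apply v, hq, B.apply_symm_apply] at this
      rw [← Real.sqrt_sq (norm_nonneg v), ← Real.sqrt_mul hM.le]
      exact Real.le_sqrt_of_sq_le this
    constructor
    · rw [← e2]
      exact (norm_pullBil_le _ _).trans (mul_le_mul_of_nonneg_right n2 (norm_nonneg _))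
    · rw [← e1]
      exact (norm_pullBil_le _ _).trans (mul_le_mul_of_nonneg_right n1 (norm_nonneg _))
  set P := ‖pullBil (F.A : Endo) b‖ with hP
  have hP0 : 0 ≤ P := norm_nonneg _
  constructor
  · calc G.nrmVal x b ≤ ∑ i, G.rho i x * (M * P) := by
          show (∑ i, G.rho i x * ‖view2 (G.c i) (fun _ => b) (G.c i x)‖) ≤ _
          refine Finset.sum_le_sum fun i _ => ?_
          by_cases hi : G.rho i x = 0
          · simp [hi]
          · exact mul_le_mul_of_nonneg_left (key i hi).1 (rho_nonneg G i x)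
      _ = M * P := by rw [← Finset.sum_mul, rho_sum, one_mul]
      _ ≤ _ := mul_le_mul_of_nonneg_right (by linarith [inv_pos.2 hm]) hP0
  · calc P = ∑ i, G.rho i x * P := by rw [← Finset.sum_mul, rho_sum, one_mul]
      _ ≤ ∑ i, m⁻¹ * (G.rho i x * ‖view2 (G.c i) (fun _ => b) (G.c i x)‖) := by
          refine Finset.sum_le_sum fun i _ => ?_
          by_cases hi : G.rho i x = 0
          · simp [hi]
          · rw [← mul_assoc, mul_comm m⁻¹, mul_assoc]
            exact mul_le_mul_of_nonneg_left (key i hi).2 (rho_nonneg G i x)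
      _ = m⁻¹ * G.nrmVal x b := by rw [← Finset.mul_sum]; rfl
      _ ≤ _ := mul_le_mul_of_nonneg_right (by linarith) (nrm2_nonneg G (fun _ => b) x)

/-! ### The pointwise facts -/

theorem omega_at (x : X) : G.PosAt x (G.omega x) := by
  refine ⟨⟨G.omega_smooth.1 x, ?_⟩, fun v => ?_⟩
  · ext u v; exact G.omega_inv x u v
  · rcases eq_or_ne v 0 with rfl | hv
    · simp
    · exact (G.omega_pos x v hv).le

theorem nrmVal_nonneg (x : X) (b : Bil) : 0 ≤ G.nrmVal x b := nrm2_nonneg G (fun _ => b) x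

theorem pointFacts : PointFacts G := by
  obtain ⟨C, hC, hcmp⟩ := frame_compare G
  have hsq : ∀ (x : X) (F : Frame G x) (b : Bil),
      G.nrmVal x b ^ 2 ≤ C ^ 2 * ‖pullBil (F.A : Endo) b‖ ^ 2 := fun x F b => by
    rw [← mul_pow]; exact pow_le_pow_left₀ (nrmVal_nonneg G x b) (hcmp x F b).1 2
  constructor
  case W_symm => exact fun x a b => G.W_comm x a b
  case W_omega =>
    intro x
    obtain ⟨F⟩ := exists_frame G x
    rw [F.W_eq (G.omega_smooth.1 x) (G.omega_smooth.1 x), F.omega_std, W0, top22_omega0]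
    norm_num
  case omega_at => exact omega_at G
  case W_inv_anti =>
    intro x a b ha hb
    obtain ⟨F⟩ := exists_frame G x
    rw [F.W_eq ha.1 hb.1]
    exact W0_inv_anti ((F.invAt_iff a).1 ha) ((F.antiAt_iff b).1 hb)
  case inv11_at =>
    intro x b hb
    refine ⟨isAlt_inv11 hb, ?_⟩
    ext u v
    simp only [inv11, pullBil_apply, smul_apply, add_apply, J_J G, map_neg, neg_apply, neg_neg]
    ring
  case anti20_at =>
    intro x b hb
    refine ⟨isAlt_anti20 hb, ?_⟩
    ext u v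
    simp only [anti20, pullBil_apply, smul_apply, sub_apply, J_J G, map_neg, neg_apply, neg_neg,
      smul_eq_mul]
    ring
  case split => exact fun x b => inv11_add_anti20 (G.J x) b
  case inv11_pos =>
    intro x b v hb
    simp only [inv11, pullBil_apply, smul_apply, add_apply, J_J G, map_neg, smul_eq_mul,
      hb (G.J x v) v]
    ring
  case posForm_at =>
    intro x α
    refine ⟨⟨isAlt_wedgeCov _ _, ?_⟩, fun v => ?_⟩
    · ext u v
      simp only [pullBil_apply, posForm, wedgeCov_apply, neg_apply,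
        ContinuousLinearMap.comp_apply, J_J G, map_neg]
      ring
    · simp only [posForm, wedgeCov_apply, neg_apply, ContinuousLinearMap.comp_apply, J_J G, map_neg]
      nlinarith [mul_self_nonneg (α v), mul_self_nonneg (α (G.J x v))]
  case inv11_wedge_symm =>
    intro x α β
    ext u v
    simp only [inv11, pullBil_apply, smul_apply, add_apply, wedgeCov_apply, neg_apply,
      ContinuousLinearMap.comp_apply, J_J G, map_neg, smul_eq_mul]
    ring
  case W_bound =>
    refine ⟨3 * C ^ 2, fun x a b ha hb => ?_⟩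
    obtain ⟨F⟩ := exists_frame G x
    rw [F.W_eq ha hb]
    refine (abs_W0_le _ _).trans ?_
    have := mul_le_mul (hcmp x F a).2 (hcmp x F b).2 (norm_nonneg _)
      (mul_nonneg hC.le (nrmVal_nonneg G x a))
    linarith
  case W_anti =>
    refine ⟨C ^ 2 * 64, by positivity, fun x b hb => ?_⟩
    obtain ⟨F⟩ := exists_frame G x
    rw [F.W_eq hb.1 hb.1, mul_assoc]
    exact (hsq x F b).trans
      (mul_le_mul_of_nonneg_left (anti0_norm ((F.antiAt_iff b).1 hb)) (sq_nonneg C))
  case pos_nrm =>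
    refine ⟨C * 16, by positivity, fun x b hb => ?_⟩
    obtain ⟨F⟩ := exists_frame G x
    rw [F.W_eq hb.1.1 (G.omega_smooth.1 x), F.omega_std, mul_assoc]
    exact (hcmp x F b).1.trans
      (mul_le_mul_of_nonneg_left (pos0_norm ((F.posAt_iff b).1 hb)) hC.le)
  case inv_le =>
    refine ⟨C * (1 + ‖J0‖), fun x b _ v => ?_⟩
    obtain ⟨F⟩ := exists_frame G x
    obtain ⟨w, rfl⟩ : ∃ w, v = F.A w := ⟨F.A.symm v, (F.A.apply_symm_apply v).symm⟩
    rw [F.value, F.metric]
    have h1 := (pullBil (F.A : Endo) b).le_opNorm₂ w (J0 w)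
    rw [Real.norm_eq_abs] at h1
    calc |pullBil (F.A : Endo) b w (J0 w)| ≤ ‖pullBil (F.A : Endo) b‖ * ‖w‖ * ‖J0 w‖ := h1
      _ ≤ (C * G.nrmVal x b) * ‖w‖ * ((1 + ‖J0‖) * ‖w‖) := by
          have := nrmVal_nonneg G x b
          refine mul_le_mul (mul_le_mul_of_nonneg_right (hcmp x F b).2 (norm_nonneg _)) ?_
            (norm_nonneg _) (by positivity)
          exact (J0.le_opNorm w).trans (mul_le_mul_of_nonneg_right (by linarith) (norm_nonneg _))
      _ = _ := by ring
  case pos_W =>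
    intro x a b ha hb
    obtain ⟨F⟩ := exists_frame G x
    rw [F.W_eq ha.1.1 hb.1.1]
    exact W0_pos ((F.posAt_iff a).1 ha) ((F.posAt_iff b).1 hb)
  case W_dual =>
    intro x a ha h
    obtain ⟨F⟩ := exists_frame G x
    refine (F.posAt_iff a).2 (W0_dual ((F.invAt_iff a).1 ha) fun α => ?_)
    have e : pullBil (F.A : Endo) (posForm (G.J x) (pullCov (F.A.symm : Endo) α)) =
        posForm J0 α := by
      ext u v
      simp [pullBil_apply, posForm, wedgeCov_apply, pullCov, F.J_std]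
    rw [← e, ← F.W_eq ha.1 (by exact isAlt_wedgeCov _ _)]
    exact h _
  case W_inv =>
    refine ⟨C ^ 2 * 192, by positivity, fun x b hb => ?_⟩
    obtain ⟨F⟩ := exists_frame G x
    rw [F.W_eq hb.1 (G.omega_smooth.1 x), F.W_eq hb.1 hb.1, F.omega_std, mul_assoc]
    exact (hsq x F b).trans
      (mul_le_mul_of_nonneg_left (inv0_norm ((F.invAt_iff b).1 hb)) (sq_nonneg C))
  case pi_bound =>
    refine ⟨C * ((1 + ‖J0‖ ^ 2) * C), fun x b _ => ?_⟩
    obtain ⟨F⟩ := exists_frame G x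
    set B := pullBil (F.A : Endo) b with hB
    have h2 : ‖pullBil J0 B‖ ≤ ‖J0‖ ^ 2 * ‖B‖ := norm_pullBil_le J0 B
    have hB0 : 0 ≤ ‖B‖ := norm_nonneg _
    have hJ0 : 0 ≤ ‖J0‖ ^ 2 := sq_nonneg _
    have half : ∀ c : Bil, ‖c‖ ≤ (1 + ‖J0‖ ^ 2) * ‖B‖ →
        ‖(2⁻¹ : ℝ) • c‖ ≤ (1 + ‖J0‖ ^ 2) * ‖B‖ := fun c hc => by
      rw [norm_smul, Real.norm_of_nonneg (by norm_num)]
      linarith [norm_nonneg c]
    have fin : ∀ c : Bil, ‖pullBil (F.A : Endo) c‖ ≤ (1 + ‖J0‖ ^ 2) * ‖B‖ →
        G.nrmVal x c ≤ C * ((1 + ‖J0‖ ^ 2) * C) * G.nrmVal x b := fun c hc => by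
      refine (hcmp x F c).1.trans ?_
      have := mul_le_mul_of_nonneg_left (hcmp x F b).2
        (mul_nonneg hC.le (by linarith : 0 ≤ 1 + ‖J0‖ ^ 2))
      have := mul_le_mul_of_nonneg_left hc hC.le
      linarith
    refine ⟨fin _ ?_, fin _ ?_⟩
    · have e : pullBil (F.A : Endo) (inv11 (G.J x) b) = (2⁻¹ : ℝ) • (B + pullBil J0 B) := by
        rw [inv11, pullBil_smul, pullBil_add, pull_J F]
      rw [e]
      exact half _ ((norm_add_le _ _).trans (by linarith))
    · have e : pullBil (F.A : Endo) (anti20 (G.J x) b) = (2⁻¹ : ℝ) • (B - pullBil J0 B) := by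
        rw [anti20, pullBil_smul, pullBil_sub, pull_J F]
      rw [e]
      exact half _ ((norm_sub_le _ _).trans (by linarith))

/-- The foundation module's pointwise theorem. -/
theorem pointStatement : PointStatement.{u} := fun _ _ _ _ _ _ G => pointFacts G

end Vale.Agent.P204.Full.Point
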