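import Vale.Agent.P204.Full.Contract
import Vale.Agent.P204.Full.Point.Linear

/-!
Continuity of fields read in charts of the maximal atlas.
-/

open scoped Manifold ContDiff Topology
open Set Filter MeasureTheory

noncomputable section

namespace Vale.Agent.P204.Full.Point

universe u

theorem isBounded_flip : IsBoundedLinearMap ℝ fun a : Bil => a.flip :=
  ⟨⟨fun a b => ContinuousLinearMap.flip_add a b, fun c a => ContinuousLinearMap.flip_smul c a⟩,
    1, one_pos, fun a => by simp⟩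

theorem contDiff_pullBil : ContDiff ℝ ∞ fun p : Endo × Bil => pullBil p.1 p.2 := by
  have hf : ∀ {E : Type} [NormedAddCommGroup E] [NormedSpace ℝ E] {g : E → Bil},
      ContDiff ℝ ∞ g → ContDiff ℝ ∞ fun e => (g e).flip := fun {E} _ _ {g} hg =>
    isBounded_flip.contDiff.comp hg
  exact hf ((hf (contDiff_snd.clm_comp contDiff_fst)).clm_comp contDiff_fst)

theorem contDiff_inv11 : ContDiff ℝ ∞ fun p : Endo × Bil => inv11 p.1 p.2 :=
  (contDiff_snd.add contDiff_pullBil).const_smul (2⁻¹ : ℝ)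

theorem contDiff_anti20 : ContDiff ℝ ∞ fun p : Endo × Bil => anti20 p.1 p.2 :=
  (contDiff_snd.sub contDiff_pullBil).const_smul (2⁻¹ : ℝ)

theorem continuous_wedgeCov : Continuous fun p : Cov × Cov => wedgeCov p.1 p.2 :=
  (((ContinuousLinearMap.smulRightL ℝ R4 Cov).continuous.comp continuous_fst).clm_apply
    continuous_snd).sub
    (((ContinuousLinearMap.smulRightL ℝ R4 Cov).continuous.comp continuous_snd).clm_apply
      continuous_fst)

variable {X : Type u} [TopologicalSpace X] [ChartedSpace R4 X] [IsManifold 𝓘(ℝ, R4) ∞ X]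

omit [IsManifold 𝓘(ℝ, R4) ∞ X] in
/-- The charts of the maximal atlas are differentiable. -/
theorem mdiff {c : OpenPartialHomeomorph X R4}
    (hc : c ∈ IsManifold.maximalAtlas 𝓘(ℝ, R4) ∞ X) :
    c.MDifferentiable 𝓘(ℝ, R4) 𝓘(ℝ, R4) :=
  ⟨(contMDiffOn_of_mem_maximalAtlas hc).mdifferentiableOn (by simp),
    (contMDiffOn_symm_of_mem_maximalAtlas hc).mdifferentiableOn (by simp)⟩

theorem chart_mem (x₀ : X) :
    chartAt R4 x₀ ∈ IsManifold.maximalAtlas 𝓘(ℝ, R4) ∞ X :=
  IsManifold.chart_mem_maximalAtlas x₀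

/-- The derivative of a change of charts. -/
def Tm (c c' : OpenPartialHomeomorph X R4) (y : R4) : Endo :=
  fderiv ℝ (fun z => c' (c.symm z)) y

omit [ChartedSpace R4 X] [IsManifold 𝓘(ℝ, R4) ∞ X] in
theorem isOpen_overlap (c c' : OpenPartialHomeomorph X R4) :
    IsOpen (c.target ∩ c.symm ⁻¹' c'.source) :=
  c.isOpen_inter_preimage_symm c'.open_source

variable {c c' : OpenPartialHomeomorph X R4}

omit [IsManifold 𝓘(ℝ, R4) ∞ X] in
theorem contDiffOn_trans (hc : c ∈ IsManifold.maximalAtlas 𝓘(ℝ, R4) ∞ X)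
    (hc' : c' ∈ IsManifold.maximalAtlas 𝓘(ℝ, R4) ∞ X) :
    ContDiffOn ℝ ∞ (fun z => c' (c.symm z)) (c.target ∩ c.symm ⁻¹' c'.source) :=
  contMDiffOn_iff_contDiffOn.1 ((contMDiffOn_of_mem_maximalAtlas hc').comp
    ((contMDiffOn_symm_of_mem_maximalAtlas hc).mono inter_subset_left) inter_subset_right)

omit [IsManifold 𝓘(ℝ, R4) ∞ X] in
theorem contDiffOn_Tm (hc : c ∈ IsManifold.maximalAtlas 𝓘(ℝ, R4) ∞ X)
    (hc' : c' ∈ IsManifold.maximalAtlas 𝓘(ℝ, R4) ∞ X) :
    ContDiffOn ℝ ∞ (Tm c c') (c.target ∩ c.symm ⁻¹' c'.source) :=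
  (contDiffOn_trans hc hc').fderiv_of_isOpen (isOpen_overlap c c') (by simp)

omit [IsManifold 𝓘(ℝ, R4) ∞ X] in
theorem dsymm_eq (hc : c ∈ IsManifold.maximalAtlas 𝓘(ℝ, R4) ∞ X)
    (hc' : c' ∈ IsManifold.maximalAtlas 𝓘(ℝ, R4) ∞ X) {y : R4} (hy : y ∈ c.target)
    (hy' : c.symm y ∈ c'.source) :
    dsymm c y = (dsymm c' (c' (c.symm y))).comp (Tm c c' y) := by
  have hU := (isOpen_overlap c c').mem_nhds ⟨hy, hy'⟩
  have h1 : c.symm =ᶠ[𝓝 y] fun z => c'.symm (c' (c.symm z)) :=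
    Filter.eventually_of_mem hU fun z hz => (c'.left_inv hz.2).symm
  have hd : MDifferentiableAt 𝓘(ℝ, R4) 𝓘(ℝ, R4) (fun z => c' (c.symm z)) y :=
    (((contDiffOn_trans hc hc').contDiffAt hU).differentiableAt (by simp)).mdifferentiableAt
  have h2 := mfderiv_comp y ((mdiff hc').mdifferentiableAt_symm (c'.map_source hy')) hd
  show mfderiv 𝓘(ℝ, R4) 𝓘(ℝ, R4) c.symm y = _
  rw [h1.mfderiv_eq]
  refine h2.trans ?_
  rw [mfderiv_eq_fderiv]
  rfl

omit [IsManifold 𝓘(ℝ, R4) ∞ X] in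
theorem dsymm_left_inv (hc : c ∈ IsManifold.maximalAtlas 𝓘(ℝ, R4) ∞ X) {y : R4}
    (hy : y ∈ c.target) (v : R4) :
    dsymm c y ((mfderiv 𝓘(ℝ, R4) 𝓘(ℝ, R4) c (c.symm y) : Endo) v) = v := by
  have h := (mdiff hc).symm_comp_deriv (c.map_target hy)
  rw [c.right_inv hy] at h
  exact congrArg (fun f : Endo => f v) h

omit [IsManifold 𝓘(ℝ, R4) ∞ X] in
theorem dsymm_right_inv (hc : c ∈ IsManifold.maximalAtlas 𝓘(ℝ, R4) ∞ X) {y : R4}
    (hy : y ∈ c.target) (v : R4) :
    (mfderiv 𝓘(ℝ, R4) 𝓘(ℝ, R4) c (c.symm y) : Endo) (dsymm c y v) = v :=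
  congrArg (fun f : Endo => f v) ((mdiff hc).comp_symm_deriv hy)

/-- The derivative of an inverse chart, as an equivalence. -/
def dequiv (hc : c ∈ IsManifold.maximalAtlas 𝓘(ℝ, R4) ∞ X) {y : R4} (hy : y ∈ c.target) :
    R4 ≃L[ℝ] R4 :=
  ContinuousLinearEquiv.equivOfInverse (dsymm c y)
    (mfderiv 𝓘(ℝ, R4) 𝓘(ℝ, R4) c (c.symm y)) (dsymm_right_inv hc hy) (dsymm_left_inv hc hy)

omit [IsManifold 𝓘(ℝ, R4) ∞ X] in
theorem view2_trans (hc : c ∈ IsManifold.maximalAtlas 𝓘(ℝ, R4) ∞ X)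
    (hc' : c' ∈ IsManifold.maximalAtlas 𝓘(ℝ, R4) ∞ X) (θ : X → Bil) {y : R4} (hy : y ∈ c.target)
    (hy' : c.symm y ∈ c'.source) :
    view2 c θ y = pullBil (Tm c c' y) (view2 c' θ (c' (c.symm y))) := by
  simp only [view2]
  rw [dsymm_eq hc hc' hy hy', pullBil_comp, c'.left_inv hy']

omit [ChartedSpace R4 X] [IsManifold 𝓘(ℝ, R4) ∞ X] in
theorem mapsTo_trans (c c' : OpenPartialHomeomorph X R4) :
    MapsTo (fun z => c' (c.symm z)) (c.target ∩ c.symm ⁻¹' c'.source) c'.target :=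
  fun _ hz => c'.map_source hz.2

theorem continuous_pullBil : Continuous fun p : Endo × Bil => pullBil p.1 p.2 :=
  contDiff_pullBil.continuous

theorem continuousOn_pullBil {Z : Type*} [TopologicalSpace Z] {s : Set Z} {A : Z → Endo}
    {b : Z → Bil} (hA : ContinuousOn A s) (hb : ContinuousOn b s) :
    ContinuousOn (fun z => pullBil (A z) (b z)) s :=
  Continuous.comp_continuousOn (f := fun z => (A z, b z))
    (g := fun p : Endo × Bil => pullBil p.1 p.2) continuous_pullBil (hA.prodMk hb)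

theorem continuousOn_view2 {θ : X → Bil} (hθ : Cont2 θ)
    (hc : c ∈ IsManifold.maximalAtlas 𝓘(ℝ, R4) ∞ X) : ContinuousOn (view2 c θ) c.target := by
  intro y hy
  set c' := chartAt R4 (c.symm y) with hc'def
  have hc' := chart_mem (c.symm y)
  rw [← hc'def] at hc'
  have hy' : c.symm y ∈ c'.source := mem_chart_source R4 _
  have hU := (isOpen_overlap c c').mem_nhds ⟨hy, hy'⟩
  have hb : ContinuousOn (view2 c' θ) c'.target := hθ.2 (c.symm y)
  have hcomp : ContinuousOn (fun z => view2 c' θ (c' (c.symm z)))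
      (c.target ∩ c.symm ⁻¹' c'.source) :=
    hb.comp (contDiffOn_trans hc hc').continuousOn (mapsTo_trans c c')
  have h : ContinuousOn (fun z => pullBil (Tm c c' z) (view2 c' θ (c' (c.symm z))))
      (c.target ∩ c.symm ⁻¹' c'.source) :=
    continuousOn_pullBil (contDiffOn_Tm hc hc').continuousOn hcomp
  exact ((h.congr fun z hz => view2_trans hc hc' θ hz.1 hz.2).continuousAt hU).continuousWithinAt

omit [IsManifold 𝓘(ℝ, R4) ∞ X] in
theorem cont2_of_smooth2 {θ : X → Bil} (h : Smooth2 θ) : Cont2 θ :=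
  ⟨h.1, fun x₀ => (h.2 x₀).continuousOn⟩

variable (G : Geo X)

theorem J_J (x : X) (v : R4) : G.J x (G.J x v) = -v := G.J_acs.2 x v

theorem contDiffOn_endInChart (x₀ : X) :
    ContDiffOn ℝ ∞ (endInChart (X := X) G.J x₀) (chartAt R4 x₀).target := G.J_acs.1 x₀

theorem dsymm_endInChart (x₀ : X) {z : R4} (hz : z ∈ (chartAt R4 x₀).target) (v : R4) :
    dsymm (chartAt R4 x₀) z (endInChart (X := X) G.J x₀ z v) =
      G.J ((chartAt R4 x₀).symm z) (dsymm (chartAt R4 x₀) z v) :=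
  dsymm_left_inv (chart_mem x₀) hz _

theorem view2_pullJ (θ : X → Bil) (x₀ : X) {z : R4} (hz : z ∈ (chartAt R4 x₀).target) :
    view2 (chartAt R4 x₀) (fun x => pullBil (G.J x) (θ x)) z =
      pullBil (endInChart (X := X) G.J x₀ z) (view2 (chartAt R4 x₀) θ z) := by
  ext u v
  simp only [view2, pullBil_apply, dsymm_endInChart G x₀ hz]

theorem view2_p11 (θ : X → Bil) (x₀ : X) {z : R4} (hz : z ∈ (chartAt R4 x₀).target) :
    view2 (chartAt R4 x₀) (G.p11 θ) z =
      inv11 (endInChart (X := X) G.J x₀ z) (view2 (chartAt R4 x₀) θ z) := by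
  rw [inv11, ← view2_pullJ G θ x₀ hz]
  rfl

theorem view2_p20 (θ : X → Bil) (x₀ : X) {z : R4} (hz : z ∈ (chartAt R4 x₀).target) :
    view2 (chartAt R4 x₀) (G.p20 θ) z =
      anti20 (endInChart (X := X) G.J x₀ z) (view2 (chartAt R4 x₀) θ z) := by
  rw [anti20, ← view2_pullJ G θ x₀ hz]
  rfl

theorem isAlt_inv11 {J : Endo} {b : Bil} (h : IsAlt b) : IsAlt (inv11 J b) :=
  (h.add (alt_pull h J)).smul _

theorem isAlt_anti20 {J : Endo} {b : Bil} (h : IsAlt b) : IsAlt (anti20 J b) :=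
  (alt_sub h (alt_pull h J)).smul _

theorem cont2_p11 {θ : X → Bil} (h : Cont2 θ) : Cont2 (G.p11 θ) :=
  ⟨fun x => isAlt_inv11 (h.1 x), fun x₀ => (contDiff_inv11.continuous.comp_continuousOn
    ((contDiffOn_endInChart G x₀).continuousOn.prodMk (h.2 x₀))).congr
      fun _ hz => view2_p11 G θ x₀ hz⟩

theorem cont2_p20 {θ : X → Bil} (h : Cont2 θ) : Cont2 (G.p20 θ) :=
  ⟨fun x => isAlt_anti20 (h.1 x), fun x₀ => (contDiff_anti20.continuous.comp_continuousOn
    ((contDiffOn_endInChart G x₀).continuousOn.prodMk (h.2 x₀))).congr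
      fun _ hz => view2_p20 G θ x₀ hz⟩

theorem smooth2_p20 {θ : X → Bil} (h : Smooth2 θ) : Smooth2 (G.p20 θ) :=
  ⟨fun x => isAlt_anti20 (h.1 x), fun x₀ => (contDiff_anti20.comp_contDiffOn
    ((contDiffOn_endInChart G x₀).prodMk (h.2 x₀))).congr fun _ hz => view2_p20 G θ x₀ hz⟩

omit [IsManifold 𝓘(ℝ, R4) ∞ X] in
theorem cont2_smul {f : X → ℝ} (hf : Continuous f) {θ : X → Bil} (hθ : Cont2 θ) :
    Cont2 fun x => f x • θ x :=
  ⟨fun x => (hθ.1 x).smul _, fun x₀ =>
    ((hf.comp_continuousOn (chartAt R4 x₀).continuousOn_symm).smul (hθ.2 x₀)).congr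
      fun _ _ => rfl⟩

theorem cont2_wedge {α β : X → Cov} (hα : Smooth1 α) (hβ : Smooth1 β) :
    Cont2 fun x => wedgeCov (α x) (-((β x).comp (G.J x))) :=
  ⟨fun x => isAlt_wedgeCov _ _, fun x₀ => by
    refine ((continuous_wedgeCov.comp_continuousOn ((hα x₀).continuousOn.prodMk
      ((hβ x₀).continuousOn.clm_comp (contDiffOn_endInChart G x₀).continuousOn).neg))).congr ?_
    intro z hz
    ext u v
    simp only [view2, pullBil_apply, Function.comp_apply, Pi.neg_apply, wedgeCov_apply, view1, pullCov,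
      neg_apply, ContinuousLinearMap.comp_apply, dsymm_endInChart G x₀ hz]⟩

/-- `θ(v, J v)` in the coordinates of a chart. -/
def qform (θ : X → Bil) (c : OpenPartialHomeomorph X R4) (p : R4 × R4) : ℝ :=
  θ (c.symm p.1) (dsymm c p.1 p.2) (G.J (c.symm p.1) (dsymm c p.1 p.2))

theorem continuousOn_qform {θ : X → Bil} (hθ : Cont2 θ)
    (hc : c ∈ IsManifold.maximalAtlas 𝓘(ℝ, R4) ∞ X) :
    ContinuousOn (qform G θ c) (c.target ×ˢ univ) := by
  rintro ⟨y, w⟩ ⟨hy, -⟩
  set x₀ := c.symm y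
  set c' := chartAt R4 x₀
  have hc' : c' ∈ IsManifold.maximalAtlas 𝓘(ℝ, R4) ∞ X := chart_mem x₀
  have hy' : c.symm y ∈ c'.source := mem_chart_source R4 x₀
  set U := (c.target ∩ c.symm ⁻¹' c'.source) ×ˢ (univ : Set R4)
  have hU : U ∈ 𝓝 (y, w) :=
    ((isOpen_overlap c c').prod isOpen_univ).mem_nhds ⟨⟨hy, hy'⟩, mem_univ _⟩
  have h1 : ContinuousOn (fun p : R4 × R4 => Tm c c' p.1 p.2) U :=
    ((contDiffOn_Tm hc hc').continuousOn.comp continuousOn_fst fun p hp => hp.1).clm_apply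
      continuousOn_snd
  have h0 : ContinuousOn (fun p : R4 × R4 => c' (c.symm p.1)) U :=
    (contDiffOn_trans hc hc').continuousOn.comp continuousOn_fst fun p hp => hp.1
  have h2 : MapsTo (fun p : R4 × R4 => c' (c.symm p.1)) U c'.target :=
    fun p hp => c'.map_source hp.1.2
  have h : ContinuousOn (fun p : R4 × R4 => view2 c' θ (c' (c.symm p.1)) (Tm c c' p.1 p.2)
      (endInChart (X := X) G.J x₀ (c' (c.symm p.1)) (Tm c c' p.1 p.2))) U :=
    (((hθ.2 x₀).comp h0 h2).clm_apply h1).clm_apply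
      ((((contDiffOn_endInChart G x₀).continuousOn).comp h0 h2).clm_apply h1)
  refine ((h.congr ?_).continuousAt hU).continuousWithinAt
  intro p hp
  simp only [qform, view2, pullBil_apply, c', dsymm_endInChart G x₀ (h2 hp)]
  rw [dsymm_eq hc hc' hp.1.1 hp.1.2, c'.left_inv hp.1.2]
  rfl

/-! ### The partition of unity -/

theorem coreFun_nonneg (i : Fin G.n) (x : X) : 0 ≤ G.coreFun i x :=
  Set.indicator_nonneg (fun _ _ => coreBump.nonneg) x

theorem core_sum_pos (x : X) : 0 < ∑ k, G.coreFun k x := by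
  obtain ⟨i, hi, hn⟩ := G.c_cover x
  refine Finset.sum_pos' (fun k _ => coreFun_nonneg G k x) ⟨i, Finset.mem_univ _, ?_⟩
  rw [Geo.coreFun, Set.indicator_of_mem hi]
  have : coreBump (G.c i x) = 1 := coreBump.one_of_mem_closedBall (by simpa [coreBump] using hn)
  rw [this]; exact one_pos

theorem rho_nonneg (i : Fin G.n) (x : X) : 0 ≤ G.rho i x :=
  div_nonneg (coreFun_nonneg G i x) (core_sum_pos G x).le

theorem rho_sum (x : X) : ∑ i, G.rho i x = 1 := by
  simp only [Geo.rho, ← Finset.sum_div]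
  exact div_self (core_sum_pos G x).ne'

theorem rho_supp {i : Fin G.n} {x : X} (h : G.rho i x ≠ 0) :
    x ∈ (G.c i).source ∧ ‖G.c i x‖ < 2 := by
  have h1 : G.coreFun i x ≠ 0 := fun e => h (by simp [Geo.rho, e])
  have hx : x ∈ (G.c i).source := by
    by_contra hx; exact h1 (Set.indicator_of_notMem hx _)
  refine ⟨hx, ?_⟩
  rw [Geo.coreFun, Set.indicator_of_mem hx] at h1
  have h2 : G.c i x ∈ Function.support coreBump := h1
  rw [coreBump.support_eq] at h2
  simpa [coreBump] using h2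

/-- The part of a chart where its cut-off may be nonzero. -/
def coreSet (i : Fin G.n) : Set X := (G.c i).symm '' Metric.closedBall 0 2

theorem closedBall_subset_target (i : Fin G.n) {r : ℝ} (hr : r < 4) :
    Metric.closedBall (0 : R4) r ⊆ (G.c i).target := by
  rw [G.c_target i]; exact Metric.closedBall_subset_ball hr

theorem isCompact_coreSet (i : Fin G.n) : IsCompact (coreSet G i) :=
  (isCompact_closedBall _ _).image_of_continuousOn
    ((G.c i).continuousOn_symm.mono (closedBall_subset_target G i (by norm_num)))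

theorem nrm2_nonneg (θ : X → Bil) (x : X) : 0 ≤ G.nrm2 θ x :=
  Finset.sum_nonneg fun i _ => mul_nonneg (rho_nonneg G i x) (norm_nonneg _)

theorem mem_coreSet_of_rho {i : Fin G.n} {x : X} (h : G.rho i x ≠ 0) : x ∈ coreSet G i :=
  ⟨G.c i x, mem_closedBall_zero_iff.2 (rho_supp G h).2.le, (G.c i).left_inv (rho_supp G h).1⟩

variable [T2Space X]

theorem continuous_cutoff (i : Fin G.n) {g : R4 → ℝ} (hg : ContinuousOn g (G.c i).target)
    (f : X → ℝ) (hf : ∀ x ∈ (G.c i).source, f x = g (G.c i x))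
    (h0 : ∀ x, f x ≠ 0 → x ∈ coreSet G i) : Continuous f := by
  refine continuous_iff_continuousAt.2 fun x => ?_
  by_cases hx : x ∈ (G.c i).source
  · have h1 : ContinuousOn f (G.c i).source :=
      (hg.comp (G.c i).continuousOn fun z hz => (G.c i).map_source hz).congr hf
    exact h1.continuousAt ((G.c i).open_source.mem_nhds hx)
  · have hnot : x ∉ coreSet G i := by
      rintro ⟨y, hy, rfl⟩
      exact hx ((G.c i).map_target (closedBall_subset_target G i (by norm_num) hy))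
    refine continuousAt_const.congr (f := fun _ => (0 : ℝ)) ?_
    filter_upwards [(isCompact_coreSet G i).isClosed.isOpen_compl.mem_nhds hnot] with z hz
    by_contra hne
    exact hz (h0 z (Ne.symm hne))

theorem continuous_coreFun (i : Fin G.n) : Continuous (G.coreFun i) := by
  refine continuous_cutoff G i coreBump.continuous.continuousOn _
    (fun x hx => Set.indicator_of_mem hx _) fun x hx => mem_coreSet_of_rho G ?_
  exact div_ne_zero hx (core_sum_pos G x).ne'

theorem continuous_rho (i : Fin G.n) : Continuous (G.rho i) :=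
  (continuous_coreFun G i).div (continuous_finsetSum _ fun k _ => continuous_coreFun G k)
    fun x => (core_sum_pos G x).ne'

theorem continuous_nrm2 {θ : X → Bil} (hθ : Cont2 θ) : Continuous (G.nrm2 θ) := by
  refine continuous_finsetSum _ fun i _ => ?_
  refine continuous_cutoff G i (g := fun y => G.rho i ((G.c i).symm y) * ‖view2 (G.c i) θ y‖)
    (((continuous_rho G i).comp_continuousOn (G.c i).continuousOn_symm).mul
      (continuousOn_view2 hθ (G.c_mem i)).norm) _ (fun x hx => ?_) fun x hx => ?_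
  · rw [(G.c i).left_inv hx]
  · exact mem_coreSet_of_rho G (left_ne_zero_of_mul hx)

omit [T2Space X] in
theorem nrm2_eq (θ : X → Bil) (x : X) : G.nrm2 θ x = G.nrmVal x (θ x) :=
  G.nrm2_eq_nrmVal θ x fun _ h => (rho_supp G h).1

end Vale.Agent.P204.Full.Point
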