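import Vale.Agent.P204.Full.Interfaces
import Vale.Agent.P204.Full.Point.Frame

/-!
Facts common to all positive currents, and the positivity statement.
-/

open scoped Manifold ContDiff Topology
open Set Filter MeasureTheory

noncomputable section

namespace Vale.Agent.P204.Full.Point

universe u

variable {X : Type u} [TopologicalSpace X] [T2Space X] [ChartedSpace R4 X]
  [IsManifold 𝓘(ℝ, R4) ∞ X] (G : Geo X)

omit [T2Space X] in
theorem inv_p11 {θ : X → Bil} (h : Cont2 θ) : G.Inv (G.p11 θ) := fun x u v =>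
  congrFun (congrArg (fun f : Bil => fun a => f a v) ((pointFacts G).inv11_at x _ (h.1 x)).2) u

omit [T2Space X] in
theorem anti_p20 {θ : X → Bil} (h : Cont2 θ) : G.Anti (G.p20 θ) := fun x u v =>
  congrFun (congrArg (fun f : Bil => fun a => f a v) ((pointFacts G).anti20_at x _ (h.1 x)).2) u

omit [T2Space X] in
theorem inv_at {b : X → Bil} (hb : Cont2 b) (hi : G.Inv b) (x : X) : G.InvAt x (b x) :=
  ⟨hb.1 x, G.inv_pull hi x⟩

/-- The magnitude of the negative part of an invariant field, relative to the metric. -/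
def negPart (b : X → Bil) (x : X) : ℝ :=
  max 0 (Real.sqrt (G.W x (b x) (G.omega x) ^ 2 - G.W x (b x) (b x)) - G.W x (b x) (G.omega x))

omit [T2Space X] in
theorem negPart_spec {b : X → Bil} (hb : Cont2 b) (hi : G.Inv b) (x : X) :
    (∀ v : R4, -(negPart G b x * G.metric x v v) ≤ b x v (G.J x v)) ∧
      ∀ f : ℝ, 0 ≤ f → (∀ v : R4, -(f * G.metric x v v) ≤ b x v (G.J x v)) → negPart G b x ≤ f := by
  obtain ⟨F⟩ := exists_frame G x
  have e : negPart G b x = max 0 (Real.sqrt (W0 (pullBil (F.A : Endo) (b x)) omega0 ^ 2 -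
      W0 (pullBil (F.A : Endo) (b x)) (pullBil (F.A : Endo) (b x))) -
        W0 (pullBil (F.A : Endo) (b x)) omega0) := by
    rw [negPart, F.W_eq (hb.1 x) (G.omega_smooth.1 x), F.W_eq (hb.1 x) (hb.1 x), F.omega_std]
  obtain ⟨h1, h2⟩ := inv0_lower ((F.invAt_iff _).1 (inv_at G hb hi x))
  rw [e]
  constructor
  · intro v
    obtain ⟨w, rfl⟩ : ∃ w, v = F.A w := ⟨F.A.symm v, (F.A.apply_symm_apply v).symm⟩
    rw [F.value, F.metric]
    exact h1 w
  · intro f hf hfb
    refine h2 f hf fun w => ?_
    rw [← F.value, ← F.metric]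
    exact hfb _

omit [T2Space X] in
theorem W_chart {a b : X → Bil} (ha : Cont2 a) (hb : Cont2 b) (x₀ : X) {z : R4}
    (hz : z ∈ (chartAt R4 x₀).target) :
    G.W ((chartAt R4 x₀).symm z) (a ((chartAt R4 x₀).symm z)) (b ((chartAt R4 x₀).symm z)) =
      top22 (view2 (chartAt R4 x₀) a z) (view2 (chartAt R4 x₀) b z) /
        top22 (view2 (chartAt R4 x₀) G.omega z) (view2 (chartAt R4 x₀) G.omega z) ∧
      top22 (view2 (chartAt R4 x₀) G.omega z) (view2 (chartAt R4 x₀) G.omega z) ≠ 0 := by
  have hne : LinearMap.det (dsymm (chartAt R4 x₀) z : R4 →ₗ[ℝ] R4) ≠ 0 :=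
    (LinearEquiv.isUnit_det' (dequiv (chart_mem x₀) hz).toLinearEquiv).ne_zero
  have hω : top22 (G.omega ((chartAt R4 x₀).symm z)) (G.omega ((chartAt R4 x₀).symm z)) ≠ 0 := by
    intro h0
    have h := (pointFacts G).W_omega ((chartAt R4 x₀).symm z)
    rw [Geo.W, h0, div_zero] at h
    exact zero_ne_one h
  simp only [view2]
  rw [top22_pull _ (ha.1 _) (hb.1 _), top22_pull _ (G.omega_smooth.1 _) (G.omega_smooth.1 _)]
  exact ⟨(mul_div_mul_left _ _ hne).symm, mul_ne_zero hne hω⟩

omit [T2Space X] in
theorem continuous_W {a b : X → Bil} (ha : Cont2 a) (hb : Cont2 b) :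
    Continuous fun x => G.W x (a x) (b x) := by
  refine continuous_iff_continuousAt.2 fun x₀ => ?_
  have ho : Cont2 G.omega := cont2_of_smooth2 G.omega_smooth
  have htop : ∀ {p q : X → Bil}, Cont2 p → Cont2 q →
      ContinuousOn (fun z => top22 (view2 (chartAt R4 x₀) p z) (view2 (chartAt R4 x₀) q z))
        (chartAt R4 x₀).target := fun {p q} hp hq => by
    have h : ∀ {r : X → Bil}, Cont2 r → ∀ i j : Fin 4,
        ContinuousOn (fun z => view2 (chartAt R4 x₀) r z (bvec i) (bvec j))
          (chartAt R4 x₀).target := fun {r} hr i j =>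
      ((hr.2 x₀).clm_apply continuousOn_const).clm_apply continuousOn_const
    simp only [top22]
    exact ((((((h hp 0 1).mul (h hq 2 3)).sub ((h hp 0 2).mul (h hq 1 3))).add
      ((h hp 0 3).mul (h hq 1 2))).add ((h hp 1 2).mul (h hq 0 3))).sub
      ((h hp 1 3).mul (h hq 0 2))).add ((h hp 2 3).mul (h hq 0 1))
  have hg := ((htop ha hb).div (htop ho ho) fun z hz => (W_chart G ha hb x₀ hz).2).comp
    (chartAt R4 x₀).continuousOn fun x hx => (chartAt R4 x₀).map_source hx
  refine (hg.congr fun x hx => ?_).continuousAt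
    ((chartAt R4 x₀).open_source.mem_nhds (mem_chart_source R4 x₀))
  have h := (W_chart G ha hb x₀ ((chartAt R4 x₀).map_source hx)).1
  rw [(chartAt R4 x₀).left_inv hx] at h
  exact h

omit [T2Space X] in
theorem continuous_negPart {b : X → Bil} (hb : Cont2 b) : Continuous (negPart G b) := by
  have hW := continuous_W G hb (cont2_of_smooth2 G.omega_smooth)
  have hWW := continuous_W G hb hb
  exact continuous_const.max ((Real.continuous_sqrt.comp ((hW.pow 2).sub hWW)).sub hW)

section Currents

variable [CompactSpace X] [MeasurableSpace X] [BorelSpace X]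

omit [T2Space X] in
theorem integrable_of_cont (D : PosCur G) {f : X → ℝ} (hf : Continuous f) :
    Integrable f D.mu := by
  have := D.finite_mu
  obtain ⟨C, hC⟩ := isCompact_univ.exists_bound_of_continuousOn hf.continuousOn
  exact Integrable.of_bound hf.aestronglyMeasurable C (Eventually.of_forall fun x => hC x trivial)

omit [T2Space X] [CompactSpace X] [BorelSpace X] in
theorem via_inv (D : PosCur G) {θ : X → Bil} (h : Cont2 θ) : D.P θ = D.P (G.p11 θ) := by
  conv_lhs => rw [← G.p11_add_p20 θ]
  rw [map_add, D.P_anti _ (cont2_p20 G h) (anti_p20 G h), add_zero]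

omit [T2Space X] [CompactSpace X] [BorelSpace X] in
theorem lower_cont (D : PosCur G) {θ : X → Bil} {f : X → ℝ} (h : Cont2 θ) (hi : G.Inv θ)
    (hf : Continuous f) (hb : ∀ (x : X) (v : R4), -(f x * G.metric x v v) ≤ θ x v (G.J x v)) :
    -(∫ x, f x ∂D.mu) ≤ D.P θ := by
  set η : X → Bil := θ + fun x => f x • G.omega x with hη
  have hc : Cont2 η := h.add (cont2_smul hf (cont2_of_smooth2 G.omega_smooth))
  have h0 := D.P_nonneg η hc (fun x u v => by
    simp only [hη, Pi.add_apply, add_apply, smul_apply, hi x u v, G.omega_inv x u v]) fun x v => by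
    have := hb x v
    simp only [hη, Pi.add_apply, add_apply, smul_apply, smul_eq_mul]
    simp only [Geo.metric, ContinuousLinearMap.bilinearComp_apply,
      ContinuousLinearMap.id_apply] at this
    linarith
  rw [hη, map_add, D.P_omega f hf] at h0
  linarith

omit [T2Space X] in
theorem lower_integrable (D : PosCur G) {θ : X → Bil} {f : X → ℝ} (h : Cont2 θ)
    (hf : Integrable f D.mu) (hf0 : ∀ x, 0 ≤ f x)
    (hb : ∀ (x : X) (v : R4), -(f x * G.metric x v v) ≤ θ x v (G.J x v)) :
    -(∫ x, f x ∂D.mu) ≤ D.P θ := by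
  have hc := cont2_p11 G h
  have hi := inv_p11 G h
  have hle : ∀ x, negPart G (G.p11 θ) x ≤ f x := fun x =>
    (negPart_spec G hc hi x).2 (f x) (hf0 x) fun v =>
      le_of_le_of_eq (hb x v) ((pointFacts G).inv11_pos x (θ x) v (h.1 x)).symm
  have hn := continuous_negPart G hc
  have h1 := lower_cont G D hc hi hn fun x => (negPart_spec G hc hi x).1
  have h2 := integral_mono (integrable_of_cont G D hn) hf hle
  rw [via_inv G D h]
  linarith

theorem curFacts : CurFacts G := by
  have hP := pointFacts G
  constructor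
  case via_inv => exact fun D θ h => via_inv G D h
  case lower => exact fun D θ f h hf hf0 hb => lower_integrable G D h hf hf0 hb
  case bound =>
    obtain ⟨C₁, hC₁⟩ := hP.inv_le
    obtain ⟨C₂, hC₂⟩ := hP.pi_bound
    refine ⟨|C₁| * |C₂|, fun D θ h => ?_⟩
    set f : X → ℝ := fun x => |C₁| * |C₂| * G.nrm2 θ x with hf
    have hfc : Continuous f := continuous_const.mul (continuous_nrm2 G h)
    have key : ∀ (x : X) (v : R4), |G.p11 θ x v (G.J x v)| ≤ f x * G.metric x v v := by
      intro x v
      have hg : 0 ≤ G.metric x v v := (omega_at G x).2 v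
      refine (hC₁ x _ (hP.inv11_at x _ (h.1 x)) v).trans (mul_le_mul_of_nonneg_right ?_ hg)
      have hn := nrmVal_nonneg G x (inv11 (G.J x) (θ x))
      calc C₁ * G.nrmVal x (inv11 (G.J x) (θ x)) ≤ |C₁| * G.nrmVal x (inv11 (G.J x) (θ x)) :=
            mul_le_mul_of_nonneg_right (le_abs_self _) hn
        _ ≤ |C₁| * (|C₂| * G.nrmVal x (θ x)) := mul_le_mul_of_nonneg_left
            (((hC₂ x _ (h.1 x)).1).trans (mul_le_mul_of_nonneg_right (le_abs_self _)
              (nrmVal_nonneg G x _))) (abs_nonneg _)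
        _ = f x := by simp only [hf, nrm2_eq]; ring
    have e : ∫ x, f x ∂D.mu = |C₁| * |C₂| * ∫ x, G.nrm2 θ x ∂D.mu := integral_const_mul _ _
    have hneg : Cont2 ((-1 : ℝ) • G.p11 θ) := (cont2_p11 G h).smul _
    have h1 := lower_cont G D (cont2_p11 G h) (inv_p11 G h) hfc fun x v => (abs_le.1 (key x v)).1
    have h2 := lower_cont G D hneg (fun x u v => by
      simp only [Pi.smul_apply, smul_apply, inv_p11 G h x u v]) hfc fun x v => by
      simp only [Pi.smul_apply, smul_apply, smul_eq_mul]
      linarith [(abs_le.1 (key x v)).2]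
    rw [map_smul, smul_eq_mul] at h2
    rw [via_inv G D h, ← e, abs_le]
    constructor <;> linarith
  case cauchy =>
    intro D α β hα hβ
    set w : (X → Cov) → (X → Cov) → X → Bil :=
      fun a b x => wedgeCov (a x) (-((b x).comp (G.J x))) with hw
    have hswap : D.P (w β α) = D.P (w α β) := by
      rw [via_inv G D (cont2_wedge G hβ hα), via_inv G D (cont2_wedge G hα hβ)]
      congr 1
      funext x
      exact (hP.inv11_wedge_symm x (α x) (β x)).symm
    have key : ∀ t : ℝ, 0 ≤ D.P (w β β) * (t * t) + 2 * D.P (w α β) * t + D.P (w α α) := by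
      intro t
      have e : (w α α + t • w α β + t • w β α + (t * t) • w β β) =
          fun x => posForm (G.J x) (α x + t • β x) := by
        funext x
        ext u v
        simp only [hw, Pi.add_apply, Pi.smul_apply, posForm, wedgeCov_apply, add_apply, smul_apply,
          neg_apply, ContinuousLinearMap.comp_apply, smul_eq_mul]
        ring
      have hc : Cont2 (w α α + t • w α β + t • w β α + (t * t) • w β β) :=
        (((cont2_wedge G hα hα).add ((cont2_wedge G hα hβ).smul t)).add
          ((cont2_wedge G hβ hα).smul t)).add ((cont2_wedge G hβ hβ).smul (t * t))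
      have h0 := D.P_nonneg _ hc (by
        rw [e]; exact fun x u v => congrFun (congrArg (fun f : Bil => fun a => f a v)
          (hP.posForm_at x _).1.2) u) (by rw [e]; exact fun x v => (hP.posForm_at x _).2 v)
      simp only [map_add, map_smul, smul_eq_mul, hswap] at h0
      linarith
    have hd := discrim_le_zero key
    rw [discrim] at hd
    show D.P (w α β) ^ 2 ≤ D.P (w α α) * D.P (w β β)
    linarith

omit [T2Space X] [CompactSpace X] [BorelSpace X] in
theorem positivity_theorem (θ : X → Bil) (h : Smooth2 θ) :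
    (Smooth2 (G.p20 θ) ∧ G.Anti (G.p20 θ)) ∧
      ((∀ (x : X) (v : R4), v ≠ 0 → 0 < θ x v (G.J x v)) →
        ∀ C : PosCur G, C.P θ = 0 → C.mu univ = 0) := by
  have hc := cont2_of_smooth2 h
  refine ⟨⟨smooth2_p20 G h, anti_p20 G hc⟩, fun hpos D hD => ?_⟩
  have := D.finite_mu
  obtain ⟨m, M', hm, -, hθ⟩ := qform_compare_all G hc hpos
  obtain ⟨m', M, -, hM, hω⟩ := qform_compare_all G (cont2_of_smooth2 G.omega_smooth) G.omega_pos
  have key : ∀ (x : X) (v : R4), m / M * G.metric x v v ≤ θ x v (G.J x v) := by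
    intro x v
    obtain ⟨i, hx, hn⟩ := G.c_cover x
    set y := G.c i x
    have hy : y ∈ (G.c i).target := (G.c i).map_source hx
    obtain ⟨w, hw⟩ : ∃ w, dsymm (G.c i) y w = v :=
      ⟨(dequiv (G.c_mem i) hy).symm v, (dequiv (G.c_mem i) hy).apply_symm_apply v⟩
    have h1 := (hθ i y (by linarith) w).1
    have h2 := (hω i y (by linarith) w).2
    simp only [qform, y, (G.c i).left_inv hx] at h1 h2
    simp only [y] at hw
    rw [hw] at h1 h2
    calc m / M * G.metric x v v ≤ m / M * (M * ‖w‖ ^ 2) :=
          mul_le_mul_of_nonneg_left h2 (by positivity)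
      _ = m * ‖w‖ ^ 2 := by field_simp
      _ ≤ _ := h1
  set η : X → Bil := G.p11 θ + (-(m / M)) • G.omega with hη
  have hηc : Cont2 η := (cont2_p11 G hc).add ((cont2_of_smooth2 G.omega_smooth).smul _)
  have h0 := lower_cont G D hηc (fun x u v => by
    simp only [hη, Pi.add_apply, Pi.smul_apply, add_apply, smul_apply, inv_p11 G hc x u v,
      G.omega_inv x u v]) (continuous_const (y := (0 : ℝ))) fun x v => by
    simp only [hη, Pi.add_apply, Pi.smul_apply, add_apply, smul_apply, smul_eq_mul]
    have h3 : G.p11 θ x v (G.J x v) = θ x v (G.J x v) :=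
      (pointFacts G).inv11_pos x (θ x) v (hc.1 x)
    rw [h3, zero_mul, neg_zero]
    have h4 : G.omega x v (G.J x v) = G.metric x v v := rfl
    rw [h4]
    linarith [key x v]
  have e : D.P G.omega = D.mu.real univ := by
    have h := D.P_omega (fun _ => 1) continuous_const
    simpa using h
  rw [integral_zero, neg_zero, hη, map_add, map_smul, ← via_inv G D hc, hD, e, smul_eq_mul] at h0
  have hpos' : 0 < m / M := by positivity
  have hle : D.mu.real univ ≤ 0 := by nlinarith
  exact (measureReal_eq_zero_iff (measure_ne_top _ _)).1 (le_antisymm hle measureReal_nonneg)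

end Currents

/-- The theorem on positive currents. -/
theorem curStatement : CurStatement.{u} := fun _ _ _ _ _ _ _ _ G => curFacts G

/-- The positivity statement. -/
theorem positivityStatement : PositivityStatement.{u} :=
  fun _ _ _ _ _ _ _ _ G θ h => positivity_theorem G θ h

end Vale.Agent.P204.Full.Point
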